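import Vale.Agent.P268.T.Reg

/-!
# P268, topological half: the cone over a function on an affine chart

`acone g (x, ξ) = ξ g (x / ξ)` for `ξ > 0` and `ξ - ‖x‖` for `ξ ≤ 0`; `acut R f` is `f` on the ball of
radius `R` and `-‖x‖` off the ball of radius `2 R`. If `f t` (`t ∈ s`) has negative real part off
the ball of radius `R` and is regular at its zeros, `acone (acut R (f t))` is a family of class `R`.
-/

set_option linter.unusedSectionVars false

namespace Vale.Agent.P268.T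

open Set Filter Topology

variable {X : Type*} [NormedAddCommGroup X] [NormedSpace ℝ X]
  {T : Type*} [TopologicalSpace T]

/-- The homogeneous function `ξ g (x / ξ)` over an affine chart, continued by `ξ - ‖x‖`. -/
noncomputable def acone (g : X → ℂ) (p : X × ℝ) : ℂ :=
  if 0 < p.2 then (p.2 : ℂ) * g (p.2⁻¹ • p.1) else ((p.2 - ‖p.1‖ : ℝ) : ℂ)

theorem acone_pos (g : X → ℂ) {p : X × ℝ} (h : 0 < p.2) :
    acone g p = (p.2 : ℂ) * g (p.2⁻¹ • p.1) := if_pos h

theorem acone_nonpos (g : X → ℂ) {p : X × ℝ} (h : p.2 ≤ 0) :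
    acone g p = ((p.2 - ‖p.1‖ : ℝ) : ℂ) := if_neg (not_lt.mpr h)

theorem acone_one (g : X → ℂ) (x : X) : acone g (x, 1) = g x := by
  rw [acone_pos g (by simp)]
  simp

/-- The cutoff function. -/
noncomputable def acutχ (R : ℝ) (x : X) : ℝ := max 0 (min 1 (2 - ‖x‖ / R))

/-- `f` near the origin, `-‖x‖` far away. -/
noncomputable def acut (R : ℝ) (f : X → ℂ) (x : X) : ℂ :=
  (acutχ R x : ℂ) * f x - (((1 - acutχ R x) * ‖x‖ : ℝ) : ℂ)

theorem acutχ_nonneg (R : ℝ) (x : X) : 0 ≤ acutχ R x := le_max_left _ _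

theorem acutχ_le_one (R : ℝ) (x : X) : acutχ R x ≤ 1 := max_le zero_le_one (min_le_left _ _)

theorem acutχ_eq_one {R : ℝ} (hR : 0 < R) {x : X} (h : ‖x‖ ≤ R) : acutχ R x = 1 := by
  have : ‖x‖ / R ≤ 1 := (div_le_one hR).mpr h
  rw [acutχ, min_eq_left (by linarith), max_eq_right zero_le_one]

theorem acutχ_eq_zero {R : ℝ} (hR : 0 < R) {x : X} (h : 2 * R ≤ ‖x‖) : acutχ R x = 0 := by
  have : 2 ≤ ‖x‖ / R := (le_div_iff₀ hR).mpr h
  rw [acutχ, max_eq_left]
  exact (min_le_right _ _).trans (by linarith)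

theorem continuous_acutχ (R : ℝ) : Continuous (acutχ R : X → ℝ) := by
  unfold acutχ
  exact continuous_const.max (continuous_const.min (continuous_const.sub
    (continuous_norm.div_const _)))

theorem acut_of_le {R : ℝ} (hR : 0 < R) (f : X → ℂ) {x : X} (h : ‖x‖ ≤ R) :
    acut R f x = f x := by
  simp [acut, acutχ_eq_one hR h]

theorem acut_of_ge {R : ℝ} (hR : 0 < R) (f : X → ℂ) {x : X} (h : 2 * R ≤ ‖x‖) :
    acut R f x = ((-‖x‖ : ℝ) : ℂ) := by
  simp [acut, acutχ_eq_zero hR h]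

theorem acut_re (R : ℝ) (f : X → ℂ) (x : X) :
    (acut R f x).re = acutχ R x * (f x).re - (1 - acutχ R x) * ‖x‖ := by
  simp [acut]

theorem acut_re_neg {R : ℝ} (hR : 0 < R) {f : X → ℂ} {x : X} (h : R ≤ ‖x‖) (hf : (f x).re < 0) :
    (acut R f x).re < 0 := by
  rw [acut_re]
  have h0 := acutχ_nonneg R x
  have h1 := acutχ_le_one R x
  have h2 : 0 < ‖x‖ := hR.trans_le h
  rcases h0.eq_or_lt with h3 | h3
  · rw [← h3]; linarith
  · have h4 : acutχ R x * (f x).re < 0 := mul_neg_of_pos_of_neg h3 hf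
    have h5 : 0 ≤ (1 - acutχ R x) * ‖x‖ := mul_nonneg (by linarith) h2.le
    linarith

/-- The zeros of `acut R f` are those of `f`, if the real part of `f` is negative off the ball of
radius `R`. -/
theorem acut_eq_zero {R : ℝ} (hR : 0 < R) {f : X → ℂ} (hf : ∀ x, R ≤ ‖x‖ → (f x).re < 0) {x : X}
    (h : acut R f x = 0) : ‖x‖ < R ∧ f x = 0 := by
  have h1 : ‖x‖ < R := by
    by_contra hcon
    have h2 := acut_re_neg hR (not_lt.mp hcon) (hf x (not_lt.mp hcon))
    rw [h] at h2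
    simp at h2
  exact ⟨h1, by rwa [acut_of_le hR f h1.le] at h⟩

theorem acut_eq_zero_iff {R : ℝ} (hR : 0 < R) {f : X → ℂ} (hf : ∀ x, R ≤ ‖x‖ → (f x).re < 0)
    {x : X} : acut R f x = 0 ↔ f x = 0 := by
  refine ⟨fun h => (acut_eq_zero hR hf h).2, fun h => ?_⟩
  have h1 : ‖x‖ < R := by
    by_contra hcon
    have h2 := hf x (not_lt.mp hcon)
    rw [h] at h2
    simp at h2
  rw [acut_of_le hR f h1.le, h]

theorem continuousOn_acut (R : ℝ) {s : Set T} {f : T → X → ℂ}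
    (hf : ContinuousOn (fun p : T × X => f p.1 p.2) (s ×ˢ univ)) :
    ContinuousOn (fun p : T × X => acut R (f p.1) p.2) (s ×ˢ univ) := by
  unfold acut
  have h1 : Continuous fun p : T × X => acutχ R p.2 := (continuous_acutχ R).comp continuous_snd
  refine ((Complex.continuous_ofReal.comp h1).continuousOn.mul hf).sub ?_
  exact (Complex.continuous_ofReal.comp
    ((continuous_const.sub h1).mul continuous_snd.norm)).continuousOn

theorem RegAt.acut {R : ℝ} (hR : 0 < R) {s : Set T} {f : T → X → ℂ} {t₀ : T} {x₀ : X}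
    (hx : ‖x₀‖ < R) (h : RegAt s f t₀ x₀) : RegAt s (fun t => acut R (f t)) t₀ x₀ := by
  refine h.congr ⟨{x | ‖x‖ < R}, (isOpen_lt continuous_norm continuous_const).mem_nhds hx, ?_⟩
  exact Eventually.of_forall fun t x hx => (acut_of_le hR (f t) (le_of_lt hx)).symm

theorem hom1_acone (g : X → ℂ) : Hom1 (acone g) := by
  rintro r hr ⟨x, ξ⟩
  rcases hr.eq_or_lt with rfl | hr
  · rw [zero_smul, zero_smul, acone_nonpos g (by simp)]
    simp
  · rcases lt_or_ge 0 ξ with h | h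
    · rw [acone_pos g (p := r • (x, ξ)) (by simpa using mul_pos hr h),
        acone_pos g (p := (x, ξ)) h]
      have h1 : (r • (x, ξ)).2⁻¹ • (r • (x, ξ)).1 = ξ⁻¹ • x := by
        simp only [Prod.smul_mk, smul_eq_mul]
        rw [smul_smul]
        congr 1
        field_simp
      rw [h1]
      simp [mul_assoc]
    · rw [acone_nonpos g (p := r • (x, ξ)) (by simpa using mul_nonpos_of_nonneg_of_nonpos hr.le h),
        acone_nonpos g (p := (x, ξ)) h]
      simp only [Prod.smul_mk, smul_eq_mul, norm_smul, Real.norm_eq_abs, abs_of_pos hr]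
      push_cast
      simp only [Complex.real_smul]
      ring

/-- The cone is a continuous family. -/
theorem continuousOn_acone [ProperSpace X] {R : ℝ} {s : Set T} {g : T → X → ℂ}
    (hg : ContinuousOn (fun p : T × X => g p.1 p.2) (s ×ˢ univ))
    (hfar : ∀ t ∈ s, ∀ x, R ≤ ‖x‖ → g t x = ((-‖x‖ : ℝ) : ℂ)) :
    ContinuousOn (fun p : T × (X × ℝ) => acone (g p.1) p.2) (s ×ˢ univ) := by
  rintro ⟨t₀, x₀, ξ₀⟩ ⟨ht₀, -⟩
  rcases lt_trichotomy ξ₀ 0 with h | h | h
  · -- below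
    have hev : ∀ᶠ p in 𝓝[s ×ˢ univ] (t₀, (x₀, ξ₀)), p.2.2 < 0 :=
      mem_nhdsWithin_of_mem_nhds ((isOpen_lt (continuous_snd.comp continuous_snd)
        continuous_const).mem_nhds h)
    have h1 : Continuous fun p : T × (X × ℝ) => ((p.2.2 - ‖p.2.1‖ : ℝ) : ℂ) := by fun_prop
    refine (h1.continuousWithinAt).congr_of_eventuallyEq ?_ (acone_nonpos _ h.le)
    exact hev.mono fun p hp => acone_nonpos _ (le_of_lt hp)
  · subst h
    by_cases hx : x₀ = 0
    · -- the origin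
      subst hx
      -- a bound
      obtain ⟨C, hC0, hC⟩ : ∃ C : ℝ, 0 ≤ C ∧ ∀ᶠ t in 𝓝 t₀, ∀ x ∈ Metric.closedBall (0 : X) R,
          t ∈ s → ‖g t x‖ ≤ C := by
        have hK : IsCompact (Metric.closedBall (0 : X) R) := isCompact_closedBall _ _
        have hc : ContinuousOn (fun x => ‖g t₀ x‖) (Metric.closedBall (0 : X) R) := by
          have : ContinuousOn (fun x : X => ((t₀, x) : T × X)) (Metric.closedBall (0 : X) R) :=
            (Continuous.prodMk_right t₀).continuousOn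
          exact (hg.comp this fun x _ => ⟨ht₀, mem_univ _⟩).norm
        obtain ⟨C, hC⟩ := hK.bddAbove_image hc
        refine ⟨|C| + 1, by positivity, ?_⟩
        refine hK.eventually_forall_of_forall_eventually fun x hx => ?_
        have h1 := hg (t₀, x) ⟨ht₀, mem_univ _⟩
        have h2 : ‖g t₀ x‖ < |C| + 1 := by
          have := hC (mem_image_of_mem _ hx)
          have := le_abs_self C
          linarith
        have h3 := h1.norm.eventually (gt_mem_nhds h2)
        rw [eventually_nhdsWithin_iff] at h3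
        exact h3.mono fun z hz hs => (hz ⟨hs, mem_univ _⟩).le
      have h0 : acone (g t₀) (0, 0) = 0 := by
        rw [acone_nonpos _ (by simp)]; simp
      show Tendsto _ _ (𝓝 (acone (g t₀) (0, 0)))
      rw [h0]
      have h1 : Continuous fun p : T × (X × ℝ) => (C + 1) * |p.2.2| + ‖p.2.1‖ := by fun_prop
      have h2 : Tendsto (fun p : T × (X × ℝ) => (C + 1) * |p.2.2| + ‖p.2.1‖)
          (𝓝[s ×ˢ univ] (t₀, (0, 0))) (𝓝 0) := by
        have := h1.continuousWithinAt (s := s ×ˢ univ) (x := (t₀, ((0 : X), (0 : ℝ))))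
        have h3 : (C + 1) * |((t₀, ((0 : X), (0 : ℝ))) : T × (X × ℝ)).2.2| +
          ‖((t₀, ((0 : X), (0 : ℝ))) : T × (X × ℝ)).2.1‖ = 0 := by simp
        rw [ContinuousWithinAt, h3] at this
        exact this
      refine squeeze_zero_norm' ?_ h2
      have h4 : ∀ᶠ p : T × (X × ℝ) in 𝓝[s ×ˢ univ] (t₀, (0, 0)),
          ∀ x ∈ Metric.closedBall (0 : X) R, p.1 ∈ s → ‖g p.1 x‖ ≤ C := by
        have h5 : Tendsto (fun p : T × (X × ℝ) => p.1) (𝓝[s ×ˢ univ] (t₀, ((0 : X), (0 : ℝ))))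
            (𝓝 t₀) := (continuous_fst.tendsto _).mono_left nhdsWithin_le_nhds
        exact h5.eventually hC
      filter_upwards [h4, self_mem_nhdsWithin] with p e1 e2
      rcases lt_or_ge 0 p.2.2 with h | h
      · rw [acone_pos _ h, norm_mul]
        simp only [Complex.norm_real, Real.norm_eq_abs]
        rcases le_total ‖p.2.2⁻¹ • p.2.1‖ R with h5 | h5
        · have h6 := e1 _ (by rwa [Metric.mem_closedBall, dist_zero_right]) e2.1
          have h7 : |p.2.2| * ‖g p.1 (p.2.2⁻¹ • p.2.1)‖ ≤ |p.2.2| * C :=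
            mul_le_mul_of_nonneg_left h6 (abs_nonneg _)
          have h8 := norm_nonneg p.2.1
          have h9 := abs_nonneg p.2.2
          linarith
        · rw [hfar p.1 e2.1 _ h5]
          rw [Complex.norm_real, norm_neg, norm_norm, norm_smul, norm_inv, Real.norm_eq_abs,
            ← mul_assoc, mul_inv_cancel₀ (abs_ne_zero.mpr h.ne'), one_mul]
          have h9 := abs_nonneg p.2.2
          have : 0 ≤ (C + 1) * |p.2.2| := by positivity
          linarith
      · rw [acone_nonpos _ h, Complex.norm_real]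
        have h5 : ‖p.2.2 - ‖p.2.1‖‖ ≤ |p.2.2| + ‖p.2.1‖ := by
          refine (norm_sub_le _ _).trans ?_
          simp
        have h9 : 0 ≤ C * |p.2.2| := by positivity
        linarith
    · -- off the origin, at height zero
      have hx' : 0 < ‖x₀‖ := norm_pos_iff.mpr hx
      have h1 : Continuous fun p : T × (X × ℝ) => ((min p.2.2 0 - ‖p.2.1‖ : ℝ) : ℂ) := by fun_prop
      have hev : ∀ᶠ p in 𝓝[s ×ˢ univ] (t₀, (x₀, (0 : ℝ))), R * p.2.2 < ‖p.2.1‖ :=
        mem_nhdsWithin_of_mem_nhds ((isOpen_lt (by fun_prop) (by fun_prop)).mem_nhds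
          (by simpa using hx))
      have key : ∀ t ∈ s, ∀ x : X, ∀ ξ : ℝ, R * ξ < ‖x‖ →
          acone (g t) (x, ξ) = ((min ξ 0 - ‖x‖ : ℝ) : ℂ) := by
        intro t ht x ξ hlt
        rcases lt_or_ge 0 ξ with h | h
        · rw [acone_pos _ h, min_eq_right h.le]
          have h2 : R ≤ ‖ξ⁻¹ • x‖ := by
            rw [norm_smul, norm_inv, Real.norm_eq_abs, abs_of_pos h, inv_mul_eq_div,
              le_div_iff₀ h]
            exact hlt.le
          simp only
          rw [hfar t ht _ h2, norm_smul, norm_inv, Real.norm_eq_abs, abs_of_pos h, ←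
            Complex.ofReal_mul]
          congr 1
          field_simp
          ring
        · rw [acone_nonpos _ h, min_eq_left h]
      refine (h1.continuousWithinAt).congr_of_eventuallyEq ?_ ?_
      · filter_upwards [hev, self_mem_nhdsWithin] with p hp hps
        exact key p.1 hps.1 p.2.1 p.2.2 hp
      · exact key t₀ ht₀ x₀ 0 (by simpa using hx)
  · -- above
    have hev : ∀ᶠ p in 𝓝[s ×ˢ univ] (t₀, (x₀, ξ₀)), 0 < p.2.2 :=
      mem_nhdsWithin_of_mem_nhds ((isOpen_lt continuous_const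
        (continuous_snd.comp continuous_snd)).mem_nhds h)
    have h1 : ContinuousWithinAt (fun p : T × (X × ℝ) => (p.2.2 : ℂ) * g p.1 (p.2.2⁻¹ • p.2.1))
        (s ×ˢ univ) (t₀, (x₀, ξ₀)) := by
      have h2 : ContinuousWithinAt (fun p : T × (X × ℝ) => (p.2.2 : ℂ)) (s ×ˢ univ)
          (t₀, (x₀, ξ₀)) := (by fun_prop : Continuous fun p : T × (X × ℝ) =>
            (p.2.2 : ℂ)).continuousWithinAt
      refine h2.mul ?_
      have h3 : ContinuousAt (fun p : T × (X × ℝ) => ((p.1, p.2.2⁻¹ • p.2.1) : T × X))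
          (t₀, (x₀, ξ₀)) := by
        refine continuousAt_fst.prodMk ?_
        have h4 : ContinuousAt (fun p : T × (X × ℝ) => p.2.2⁻¹) (t₀, (x₀, ξ₀)) :=
          ContinuousAt.inv₀ (by fun_prop) h.ne'
        exact h4.smul (by fun_prop)
      have h5 := hg (t₀, ξ₀⁻¹ • x₀) ⟨ht₀, mem_univ _⟩
      exact h5.comp (x := (t₀, (x₀, ξ₀))) (t := s ×ˢ univ)
        (f := fun p : T × (X × ℝ) => ((p.1, p.2.2⁻¹ • p.2.1) : T × X)) h3.continuousWithinAt
        (fun p hp => ⟨hp.1, mem_univ _⟩)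
    refine h1.congr_of_eventuallyEq ?_ (acone_pos _ h)
    exact hev.mono fun p hp => acone_pos _ hp

/-- Regularity of the cone over a regular point. -/
theorem RegAt.acone {s : Set T} {g : T → X → ℂ} {t₀ : T} {p₀ : X × ℝ} (hp : 0 < p₀.2)
    (h : RegAt s g t₀ (p₀.2⁻¹ • p₀.1)) : RegAt s (fun t => acone (g t)) t₀ p₀ := by
  obtain ⟨k, hk0, hk1, A, U, hU, hev⟩ := h
  refine ⟨k, hk0, hk1, (ContinuousLinearMap.inl ℝ X ℝ).comp A,
    {p | 0 < p.2 ∧ p.2⁻¹ • p.1 ∈ U}, ?_, ?_⟩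
  · have h3 : ContinuousAt (fun p : X × ℝ => p.2⁻¹ • p.1) p₀ := by
      have h4 : ContinuousAt (fun p : X × ℝ => p.2⁻¹) p₀ :=
        ContinuousAt.inv₀ continuousAt_snd hp.ne'
      exact h4.smul continuousAt_fst
    exact inter_mem ((isOpen_lt continuous_const continuous_snd).mem_nhds hp)
      (h3.preimage_mem_nhds hU)
  · filter_upwards [hev] with t ht
    rintro ⟨x, ξ⟩ ⟨hξ, hx⟩ c ⟨-, hc⟩
    simp only at hξ hx
    have h1 : (x, ξ) + ((ContinuousLinearMap.inl ℝ X ℝ).comp A) c = (x + A c, ξ) := by simp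
    rw [h1] at hc ⊢
    simp only [smul_add] at hc
    have h2 : ξ⁻¹ • A c = A ((ξ⁻¹ : ℝ) • c) := (A.map_smul (ξ⁻¹) c).symm
    rw [h2] at hc
    have h3 := ht _ hx _ hc
    rw [acone_pos _ (p := (x + A c, ξ)) hξ, acone_pos _ (p := (x, ξ)) hξ]
    simp only [smul_add]
    rw [h2]
    have h4 : (ξ : ℂ) * g t (ξ⁻¹ • x + A (ξ⁻¹ • c)) - (ξ : ℂ) * g t (ξ⁻¹ • x) - c =
        (ξ : ℂ) * (g t (ξ⁻¹ • x + A (ξ⁻¹ • c)) - g t (ξ⁻¹ • x) - (ξ⁻¹ : ℝ) • c) := by
      have h5 : (ξ : ℂ) ≠ 0 := by exact_mod_cast hξ.ne'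
      rw [mul_sub, mul_sub, Complex.real_smul]
      push_cast
      rw [← mul_assoc, mul_inv_cancel₀ h5, one_mul]
    rw [h4, norm_mul, Complex.norm_real, Real.norm_eq_abs, abs_of_pos hξ]
    calc ξ * ‖g t (ξ⁻¹ • x + A (ξ⁻¹ • c)) - g t (ξ⁻¹ • x) - (ξ⁻¹ : ℝ) • c‖
        ≤ ξ * (k * ‖(ξ⁻¹ : ℝ) • c‖) := mul_le_mul_of_nonneg_left h3 hξ.le
      _ = k * ‖c‖ := by
        rw [norm_smul, norm_inv, Real.norm_eq_abs, abs_of_pos hξ]
        field_simp

/-- Regularity of the cone at its zeros. -/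
theorem regAt_acone {R : ℝ} (hR : 0 < R) {s : Set T} {f : T → X → ℂ} {t : T}
    (hneg : ∀ x, R ≤ ‖x‖ → (f t x).re < 0)
    (hreg : ∀ x, f t x = 0 → RegAt s f t x) {x : X} {ξ : ℝ} (hp : (x, ξ) ≠ (0 : X × ℝ))
    (h0 : acone (acut R (f t)) (x, ξ) = 0) :
    RegAt s (fun t => acone (acut R (f t))) t (x, ξ) := by
  rcases lt_or_ge 0 ξ with h | h
  · rw [acone_pos (p := (x, ξ)) _ h] at h0
    have h1 : (ξ : ℂ) ≠ 0 := Complex.ofReal_ne_zero.mpr h.ne'
    have h2 : acut R (f t) (ξ⁻¹ • x) = 0 := (mul_eq_zero.mp h0).resolve_left h1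
    obtain ⟨h3, h4⟩ := acut_eq_zero hR hneg h2
    exact RegAt.acone (p₀ := (x, ξ)) h (RegAt.acut hR h3 (hreg _ h4))
  · exfalso
    rw [acone_nonpos (p := (x, ξ)) _ h, Complex.ofReal_eq_zero] at h0
    have h2 : 0 ≤ ‖x‖ := norm_nonneg x
    have h1 : ξ - ‖x‖ = 0 := h0
    have h3 : ξ = 0 := by linarith
    have h4 : ‖x‖ = 0 := by linarith
    rw [h3, norm_eq_zero.mp h4] at hp
    exact hp rfl

/-- **The cone lemma.** -/
theorem RFam.acone [ProperSpace X] {R : ℝ} (hR : 0 < R) {s : Set T} {f : T → X → ℂ}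
    (hc : ContinuousOn (fun p : T × X => f p.1 p.2) (s ×ˢ univ))
    (hneg : ∀ t ∈ s, ∀ x, R ≤ ‖x‖ → (f t x).re < 0)
    (hreg : ∀ t ∈ s, ∀ x, f t x = 0 → RegAt s f t x) :
    RFam s (fun t => Vale.Agent.P268.T.acone (acut R (f t))) := by
  have h1 := continuousOn_acone (R := 2 * R) (g := fun t => acut R (f t)) (continuousOn_acut R hc)
      (fun t _ x hx => acut_of_ge hR (f t) hx)
  have h2 : ∀ t ∈ s, Hom1 (Vale.Agent.P268.T.acone (acut R (f t))) := fun t _ => hom1_acone _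
  have h3 : ∀ t ∈ s, ∀ p : X × ℝ, p ≠ 0 → Vale.Agent.P268.T.acone (acut R (f t)) p = 0 →
      RegAt s (fun t => Vale.Agent.P268.T.acone (acut R (f t))) t p :=
    fun t ht p hp h0 => regAt_acone hR (hneg t ht) (hreg t ht) (x := p.1) (ξ := p.2) hp h0
  exact RFam.mk h1 h2 h3

/-- Two ends of a path of functions on the chart, regular at their zeros, have cones with
equivalent zero sets. -/
theorem acone_veq [ProperSpace X] {R : ℝ} (hR : 0 < R) {f : ℝ → X → ℂ}
    (hc : ContinuousOn (fun p : ℝ × X => f p.1 p.2) (Icc (0 : ℝ) 1 ×ˢ univ))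
    (hneg : ∀ t ∈ Icc (0 : ℝ) 1, ∀ x, R ≤ ‖x‖ → (f t x).re < 0)
    (hreg : ∀ t ∈ Icc (0 : ℝ) 1, ∀ x, f t x = 0 → RegAt (Icc (0 : ℝ) 1) f t x) :
    VEq (acone (acut R (f 0))) (acone (acut R (f 1))) :=
  (RFam.acone hR hc hneg hreg).veq_Icc

end Vale.Agent.P268.T
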