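import Vale.Agent.P268.T.Mono

/-!
# P268, topological half: the radial direction is free

For Lipschitz homogeneous families with values in `ℂ` and a nonzero value at the point `x₀`, metric
regularity at `x₀` only has to be checked for the argument: it is enough that one direction `a`
moves the argument of `F t` strictly monotonically near `x₀`; the radial direction `x₀` does the
rest.
-/

set_option linter.unusedSectionVars false

namespace Vale.Agent.P268.T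

open Set Filter Topology

variable {E : Type*} [NormedAddCommGroup E] [NormedSpace ℝ E]
  {T : Type*} [TopologicalSpace T]

/-- Regularity from monotonicity for small increments. -/
theorem RegAt.of_monotone_small {Z : Type*} [NormedAddCommGroup Z] [InnerProductSpace ℝ Z]
    [FiniteDimensional ℝ Z] {s : Set T} {F : T → E → Z} {t₀ : T} {x₀ : E} {κ Λ δ : ℝ}
    (hκ : 0 < κ) (hδ : 0 < δ) (A : Z →L[ℝ] E)
    (h : ∃ U ∈ 𝓝 x₀, ∀ᶠ t in 𝓝[s] t₀, ∀ x ∈ U, ∀ c, ‖c‖ ≤ δ →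
      κ * ‖c‖ ^ 2 ≤ inner ℝ (F t (x + A c) - F t x) c ∧
        ‖F t (x + A c) - F t x‖ ≤ Λ * ‖c‖) : RegAt s F t₀ x₀ := by
  obtain ⟨U, hU, hev⟩ := h
  rcases (𝓝[s] t₀).eq_or_neBot with hbot | hne
  · refine ⟨0, le_rfl, one_pos, A, U, hU, ?_⟩
    rw [hbot]
    exact Filter.eventually_bot
  · -- `A` is injective
    obtain ⟨t, ht⟩ := hev.exists
    have hinj : ∀ c, A c = 0 → c = 0 := by
      intro c hc
      by_contra hc0
      have hn : 0 < ‖c‖ := norm_pos_iff.mpr hc0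
      have h1 := (ht x₀ (mem_of_mem_nhds hU) ((δ / ‖c‖) • c) (by
        rw [norm_smul, Real.norm_eq_abs, abs_of_pos (by positivity)]
        field_simp
        exact le_rfl)).1
      rw [map_smul, hc, smul_zero, add_zero, sub_self, inner_zero_left] at h1
      have h2 : 0 < ‖(δ / ‖c‖) • c‖ := by
        rw [norm_smul, Real.norm_eq_abs, abs_of_pos (by positivity)]
        positivity
      have : 0 < κ * ‖(δ / ‖c‖) • c‖ ^ 2 := by positivity
      linarith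
    have hker : LinearMap.ker (A : Z →ₗ[ℝ] E) = ⊥ := by
      rw [LinearMap.ker_eq_bot']
      exact fun c hc => hinj c hc
    obtain ⟨K, hK0, hK⟩ := LinearMap.exists_antilipschitzWith (A : Z →ₗ[ℝ] E) hker
    have hKc : ∀ c, ‖c‖ ≤ K * ‖A c‖ := by
      intro c
      have := hK.le_mul_dist c 0
      simpa using this
    have hK0' : (0 : ℝ) < K := by exact_mod_cast hK0
    set r : ℝ := δ / (2 * K) with hr
    have hr0 : 0 < r := by positivity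
    refine RegAt.of_monotone hκ (Λ := Λ) A ⟨U ∩ Metric.ball x₀ r,
      inter_mem hU (Metric.ball_mem_nhds _ hr0), ?_⟩
    filter_upwards [hev] with t ht x hx c hc
    refine ht x hx.1 c ?_
    have h1 : ‖A c‖ ≤ 2 * r := by
      have e1 : A c = (x + A c - x₀) - (x - x₀) := by abel
      have h2 : ‖x + A c - x₀‖ < r := by
        have := hc.2
        rwa [Metric.mem_ball, dist_eq_norm] at this
      have h3 : ‖x - x₀‖ < r := by
        have := hx.2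
        rwa [Metric.mem_ball, dist_eq_norm] at this
      rw [e1]
      refine (norm_sub_le _ _).trans ?_
      linarith
    calc ‖c‖ ≤ K * ‖A c‖ := hKc c
      _ ≤ K * (2 * r) := mul_le_mul_of_nonneg_left h1 hK0'.le
      _ = δ := by rw [hr]; field_simp

theorem inner_decomp {v D : ℂ} (hv : v ≠ 0) (c : ℂ) :
    inner ℝ D c = (inner ℝ v c / ‖v‖ ^ 2) * inner ℝ D v +
      (inner ℝ (Complex.I * v) c / ‖v‖ ^ 2) * inner ℝ D (Complex.I * v) := by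
  have h1 : ‖v‖ ^ 2 = v.re ^ 2 + v.im ^ 2 := by
    rw [Complex.sq_norm, Complex.normSq_apply]; ring
  have h2 : v.re ^ 2 + v.im ^ 2 ≠ 0 := by
    rw [← h1]
    exact pow_ne_zero 2 (norm_ne_zero_iff.mpr hv)
  rw [h1, inner_complex, inner_complex, inner_complex, inner_complex, inner_complex]
  simp only [Complex.mul_re, Complex.mul_im, Complex.I_re, Complex.I_im]
  field_simp
  ring

theorem sq_norm_decomp {v : ℂ} (hv : v ≠ 0) (c : ℂ) :
    ‖c‖ ^ 2 = ‖v‖ ^ 2 * ((inner ℝ v c / ‖v‖ ^ 2) ^ 2 +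
      (inner ℝ (Complex.I * v) c / ‖v‖ ^ 2) ^ 2) := by
  have h1 : ∀ v : ℂ, ‖v‖ ^ 2 = v.re ^ 2 + v.im ^ 2 := fun v => by
    rw [Complex.sq_norm, Complex.normSq_apply]; ring
  have h2 : v.re ^ 2 + v.im ^ 2 ≠ 0 := by
    rw [← h1]
    exact pow_ne_zero 2 (norm_ne_zero_iff.mpr hv)
  rw [h1, h1, inner_complex, inner_complex]
  simp only [Complex.mul_re, Complex.mul_im, Complex.I_re, Complex.I_im]
  field_simp
  ring

/-- The arithmetic of `RegAt.of_angular`. -/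
theorem angular_arith {n κ μ M ε ρ θ a1 a2 b1 b2 : ℝ} (hn : 0 < n) (hμ : 0 < μ)
    (hM : 4 * M ^ 2 * μ ≤ κ) (hε1 : 8 * ε ≤ n) (hε2 : 8 * ε ^ 2 ≤ κ * μ)
    (h1 : κ * μ * θ ^ 2 ≤ θ * a2) (h2 : |a1| ≤ n * (M * μ * |θ|))
    (h3 : |b1 - n ^ 2 * ρ| ≤ n * (ε * |ρ|)) (h4 : |b2| ≤ n * (ε * |ρ|)) :
    1 / 2 * (n ^ 2 * ρ ^ 2) + 1 / 4 * (κ * μ * θ ^ 2) ≤ ρ * (a1 + b1) + θ * (a2 + b2) := by
  have hr := abs_nonneg ρ
  have ht := abs_nonneg θ
  have e1 : -(n * (M * μ * |θ|) * |ρ|) ≤ ρ * a1 := by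
    have : |ρ * a1| ≤ n * (M * μ * |θ|) * |ρ| := by
      rw [abs_mul, mul_comm]
      exact mul_le_mul_of_nonneg_right h2 hr
    exact (abs_le.mp this).1
  have e2 : -(n * (ε * |ρ|) * |ρ|) ≤ ρ * (b1 - n ^ 2 * ρ) := by
    have : |ρ * (b1 - n ^ 2 * ρ)| ≤ n * (ε * |ρ|) * |ρ| := by
      rw [abs_mul, mul_comm]
      exact mul_le_mul_of_nonneg_right h3 hr
    exact (abs_le.mp this).1
  have e3 : -(n * (ε * |ρ|) * |θ|) ≤ θ * b2 := by
    have : |θ * b2| ≤ n * (ε * |ρ|) * |θ| := by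
      rw [abs_mul, mul_comm]
      exact mul_le_mul_of_nonneg_right h4 ht
    exact (abs_le.mp this).1
  have s1 : |ρ| ^ 2 = ρ ^ 2 := sq_abs ρ
  have s2 : |θ| ^ 2 = θ ^ 2 := sq_abs θ
  -- first cross term
  have c1 : n * (M * μ * |θ|) * |ρ| ≤ 1 / 4 * (n ^ 2 * ρ ^ 2) + 1 / 4 * (κ * μ * θ ^ 2) := by
    have h5 : n * (M * μ * |θ|) * |ρ| ≤ 1 / 4 * (n * |ρ|) ^ 2 + (M * μ * |θ|) ^ 2 := by
      nlinarith [sq_nonneg (1 / 2 * (n * |ρ|) - M * μ * |θ|)]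
    have h6 : (M * μ * |θ|) ^ 2 ≤ 1 / 4 * (κ * μ * θ ^ 2) := by
      have : (M * μ * |θ|) ^ 2 = 1 / 4 * ((4 * M ^ 2 * μ) * (μ * θ ^ 2)) := by
        rw [← s2]; ring
      rw [this]
      have h7 : (4 * M ^ 2 * μ) * (μ * θ ^ 2) ≤ κ * (μ * θ ^ 2) :=
        mul_le_mul_of_nonneg_right hM (by positivity)
      linarith
    have h8 : (n * |ρ|) ^ 2 = n ^ 2 * ρ ^ 2 := by rw [mul_pow, s1]
    linarith
  have c2 : n * (ε * |ρ|) * |ρ| ≤ 1 / 8 * (n ^ 2 * ρ ^ 2) := by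
    have : n * (ε * |ρ|) * |ρ| = 1 / 8 * (8 * ε) * (n * ρ ^ 2) := by rw [← s1]; ring
    rw [this]
    have h7 : (8 * ε) * (n * ρ ^ 2) ≤ n * (n * ρ ^ 2) :=
      mul_le_mul_of_nonneg_right hε1 (by positivity)
    nlinarith
  have c3 : n * (ε * |ρ|) * |θ| ≤ 1 / 16 * (n ^ 2 * ρ ^ 2) + 1 / 2 * (κ * μ * θ ^ 2) := by
    have h5 : n * (ε * |ρ|) * |θ| ≤ 1 / 16 * (n * |ρ|) ^ 2 + 4 * (ε * |θ|) ^ 2 := by
      nlinarith [sq_nonneg (1 / 4 * (n * |ρ|) - 2 * (ε * |θ|))]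
    have h6 : 4 * (ε * |θ|) ^ 2 ≤ 1 / 2 * (κ * μ * θ ^ 2) := by
      have : 4 * (ε * |θ|) ^ 2 = 1 / 2 * ((8 * ε ^ 2) * θ ^ 2) := by rw [← s2]; ring
      rw [this]
      have h7 : (8 * ε ^ 2) * θ ^ 2 ≤ (κ * μ) * θ ^ 2 :=
        mul_le_mul_of_nonneg_right hε2 (by positivity)
      linarith
    have h8 : (n * |ρ|) ^ 2 = n ^ 2 * ρ ^ 2 := by rw [mul_pow, s1]
    linarith
  have e4 : ρ * (a1 + b1) + θ * (a2 + b2) =
      ρ * a1 + ρ * (b1 - n ^ 2 * ρ) + n ^ 2 * ρ ^ 2 + θ * a2 + θ * b2 := by ring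
  rw [e4]
  nlinarith

/-- The estimate of `RegAt.of_angular` in terms of increments: `P` is the radial increment, `Q` the
angular one. -/
theorem angular_incr {v₀ P Q c : ℂ} (hv₀ : v₀ ≠ 0) {κ μ M ε ρ θ : ℝ} (hμ0 : 0 < μ)
    (hMμ : 4 * M ^ 2 * μ ≤ κ) (hε1 : 8 * ε ≤ ‖v₀‖) (hε2 : 8 * ε ^ 2 ≤ κ * μ)
    (hρ : ρ = inner ℝ v₀ c / ‖v₀‖ ^ 2) (hθ : θ = inner ℝ (Complex.I * v₀) c / ‖v₀‖ ^ 2)
    (hrad : ‖P - ρ • v₀‖ ≤ ε * |ρ|) (hz1 : ‖Q‖ ≤ M * μ * |θ|)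
    (hang : κ * (μ * θ) ^ 2 ≤ (μ * θ) * inner ℝ Q (Complex.I * v₀)) :
    min (1 / 2) (κ * μ / (4 * ‖v₀‖ ^ 2)) * ‖c‖ ^ 2 ≤ inner ℝ (Q + P) c := by
  set n : ℝ := ‖v₀‖ with hn
  have hn0 : 0 < n := norm_pos_iff.mpr hv₀
  have hIv : ‖Complex.I * v₀‖ = n := by rw [norm_mul, Complex.norm_I, one_mul]
  have h1 : κ * μ * θ ^ 2 ≤ θ * inner ℝ Q (Complex.I * v₀) := by
    have : μ * (κ * μ * θ ^ 2) ≤ μ * (θ * inner ℝ Q (Complex.I * v₀)) := by
      calc μ * (κ * μ * θ ^ 2) = κ * (μ * θ) ^ 2 := by ring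
        _ ≤ (μ * θ) * inner ℝ Q (Complex.I * v₀) := hang
        _ = _ := by ring
    exact le_of_mul_le_mul_left this hμ0
  have h2 : |inner ℝ Q v₀| ≤ n * (M * μ * |θ|) := by
    refine (abs_real_inner_le_norm _ _).trans ?_
    rw [mul_comm]
    exact mul_le_mul_of_nonneg_left hz1 hn0.le
  have e5 : ∀ w : ℂ, inner ℝ P w = inner ℝ (P - ρ • v₀) w + ρ * inner ℝ v₀ w := by
    intro w
    rw [← real_inner_smul_left, ← inner_add_left, sub_add_cancel]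
  have h3 : |inner ℝ P v₀ - n ^ 2 * ρ| ≤ n * (ε * |ρ|) := by
    have e6 : inner ℝ P v₀ - n ^ 2 * ρ = inner ℝ (P - ρ • v₀) v₀ := by
      rw [e5, real_inner_self_eq_norm_sq, ← hn]; ring
    rw [e6]
    refine (abs_real_inner_le_norm _ _).trans ?_
    rw [mul_comm]
    exact mul_le_mul_of_nonneg_left hrad hn0.le
  have h4 : |inner ℝ P (Complex.I * v₀)| ≤ n * (ε * |ρ|) := by
    have e6 : inner ℝ P (Complex.I * v₀) = inner ℝ (P - ρ • v₀) (Complex.I * v₀) := by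
      have e7 : inner ℝ v₀ (Complex.I * v₀) = 0 := by
        rw [inner_complex]
        simp only [Complex.mul_re, Complex.mul_im, Complex.I_re, Complex.I_im]
        ring
      rw [e5, e7]; ring
    rw [e6]
    refine (abs_real_inner_le_norm _ _).trans ?_
    rw [hIv, mul_comm]
    exact mul_le_mul_of_nonneg_left hrad hn0.le
  have key := angular_arith (ρ := ρ) hn0 hμ0 hMμ hε1 hε2 h1 h2 h3 h4
  have e8 : inner ℝ (Q + P) c =
      ρ * (inner ℝ Q v₀ + inner ℝ P v₀) +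
        θ * (inner ℝ Q (Complex.I * v₀) + inner ℝ P (Complex.I * v₀)) := by
    rw [inner_decomp hv₀ c, ← hρ, ← hθ, ← inner_add_left, ← inner_add_left]
  rw [e8]
  refine le_trans ?_ key
  have e9 : ‖c‖ ^ 2 = n ^ 2 * (ρ ^ 2 + θ ^ 2) := by
    rw [sq_norm_decomp hv₀ c, ← hρ, ← hθ]
  rw [e9]
  have m1 : min (1 / 2) (κ * μ / (4 * n ^ 2)) ≤ 1 / 2 := min_le_left _ _
  have m2 : min (1 / 2) (κ * μ / (4 * n ^ 2)) * (4 * n ^ 2) ≤ κ * μ := by
    have := min_le_right (1 / 2) (κ * μ / (4 * n ^ 2))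
    rwa [le_div_iff₀ (by positivity)] at this
  set m : ℝ := min (1 / 2) (κ * μ / (4 * n ^ 2)) with hm
  have k1 : m * (n ^ 2 * ρ ^ 2) ≤ 1 / 2 * (n ^ 2 * ρ ^ 2) :=
    mul_le_mul_of_nonneg_right m1 (by positivity)
  have k2 : m * (4 * n ^ 2) * θ ^ 2 ≤ κ * μ * θ ^ 2 :=
    mul_le_mul_of_nonneg_right m2 (sq_nonneg _)
  nlinarith

/-- **The radial direction is free.**  If the homogeneous functions `F t` are uniformly Lipschitz
near `x₀`, close to the nonzero value `v₀` there, and one direction `a` moves the argument with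
positive speed, then the family is regular at `x₀`. -/
theorem RegAt.of_angular {s : Set T} {F : T → E → ℂ} (hom : ∀ t ∈ s, Hom1 (F t)) {t₀ : T}
    {x₀ : E} {v₀ : ℂ} (hv₀ : v₀ ≠ 0)
    (hval : ∀ ε > 0, ∃ U ∈ 𝓝 x₀, ∀ᶠ t in 𝓝[s] t₀, ∀ x ∈ U, ‖F t x - v₀‖ ≤ ε)
    {L κ : ℝ} (hκ : 0 < κ) (a : E)
    (h : ∃ U ∈ 𝓝 x₀, ∀ᶠ t in 𝓝[s] t₀, ∀ x ∈ U, (∀ y ∈ U, ‖F t y - F t x‖ ≤ L * ‖y - x‖) ∧
      ∀ τ : ℝ, x + τ • a ∈ U →
        κ * τ ^ 2 ≤ τ * inner ℝ (F t (x + τ • a) - F t x) (Complex.I * v₀)) :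
    RegAt s F t₀ x₀ := by
  -- constants
  set n : ℝ := ‖v₀‖ with hn
  have hn0 : 0 < n := norm_pos_iff.mpr hv₀
  set L' : ℝ := max L 0 with hL'
  have hL'0 : 0 ≤ L' := le_max_right _ _
  set M : ℝ := L' * ‖a‖ with hM
  have hM0 : 0 ≤ M := by positivity
  set μ : ℝ := κ / (4 * M ^ 2 + 1) with hμ
  have hμ0 : 0 < μ := by positivity
  have hMμ : 4 * M ^ 2 * μ ≤ κ := by
    rw [hμ, mul_div_assoc', div_le_iff₀ (by positivity)]
    nlinarith
  set ε : ℝ := min (n / 8) (Real.sqrt (κ * μ / 8)) with hε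
  have hε0 : 0 < ε := lt_min (by positivity) (Real.sqrt_pos.mpr (by positivity))
  have hε1 : 8 * ε ≤ n := by
    have := min_le_left (n / 8) (Real.sqrt (κ * μ / 8))
    rw [← hε] at this
    linarith
  have hε2 : 8 * ε ^ 2 ≤ κ * μ := by
    have h1 := min_le_right (n / 8) (Real.sqrt (κ * μ / 8))
    rw [← hε] at h1
    have h2 : ε ^ 2 ≤ (Real.sqrt (κ * μ / 8)) ^ 2 := pow_le_pow_left₀ hε0.le h1 2
    rw [Real.sq_sqrt (by positivity)] at h2
    linarith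
  -- neighbourhoods
  obtain ⟨U₁, hU₁, hev₁⟩ := h
  obtain ⟨U₂, hU₂, hev₂⟩ := hval (ε / 2) (by positivity)
  obtain ⟨δ, hδ, hball⟩ := Metric.mem_nhds_iff.mp (inter_mem hU₁ hU₂)
  -- the linear map
  set ρL : ℂ →L[ℝ] ℝ := (n ^ 2)⁻¹ • innerSL ℝ v₀ with hρL
  set θL : ℂ →L[ℝ] ℝ := (n ^ 2)⁻¹ • innerSL ℝ (Complex.I * v₀) with hθL
  set A : ℂ →L[ℝ] E := ρL.smulRight x₀ + μ • θL.smulRight a with hA
  have hρ : ∀ c, ρL c = inner ℝ v₀ c / ‖v₀‖ ^ 2 := fun c => by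
    rw [hρL]
    simp only [smul_apply, innerSL_apply_apply, smul_eq_mul]
    rw [← hn, inv_mul_eq_div]
  have hθ : ∀ c, θL c = inner ℝ (Complex.I * v₀) c / ‖v₀‖ ^ 2 := fun c => by
    rw [hθL]
    simp only [smul_apply, innerSL_apply_apply, smul_eq_mul]
    rw [← hn, inv_mul_eq_div]
  have hAc : ∀ c, A c = ρL c • x₀ + (μ * θL c) • a := fun c => by
    rw [hA]
    simp [smul_smul]
  -- radii
  set η : ℝ := min (min (min (δ / (4 * (‖x₀‖ + 1))) (ε / (2 * (L' + 1)))) (δ / 4)) 1 with hη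
  have hη0 : 0 < η := by positivity
  have hη4 : η ≤ 1 := min_le_right _ _
  have hη1 : η * (‖x₀‖ + 1) ≤ δ / 4 := by
    have h1 : η ≤ δ / (4 * (‖x₀‖ + 1)) :=
      (min_le_left _ _).trans ((min_le_left _ _).trans (min_le_left _ _))
    calc η * (‖x₀‖ + 1) ≤ δ / (4 * (‖x₀‖ + 1)) * (‖x₀‖ + 1) :=
          mul_le_mul_of_nonneg_right h1 (by positivity)
      _ = δ / 4 := by
          have : ‖x₀‖ + 1 ≠ 0 := by positivity
          field_simp
  have hη2 : L' * η ≤ ε / 2 := by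
    have h1 : η ≤ ε / (2 * (L' + 1)) :=
      (min_le_left _ _).trans ((min_le_left _ _).trans (min_le_right _ _))
    calc L' * η ≤ (L' + 1) * (ε / (2 * (L' + 1))) :=
          mul_le_mul (by linarith) h1 hη0.le (by positivity)
      _ = ε / 2 := by
          have : L' + 1 ≠ 0 := by positivity
          field_simp
  have hη3 : η ≤ δ / 4 := (min_le_left _ _).trans (min_le_right _ _)
  -- bound on c
  set Q : ℝ := ‖ρL‖ + μ * ‖θL‖ * ‖a‖ + 1 with hQ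
  have hQ0 : 0 < Q := by positivity
  set d : ℝ := η / Q with hd
  have hd0 : 0 < d := by positivity
  have hdη : ∀ c : ℂ, ‖c‖ ≤ d → |ρL c| ≤ η ∧ μ * |θL c| * ‖a‖ ≤ η := by
    intro c hc
    have h1 : ‖c‖ ≤ η / Q := hc
    have h2 : Q * ‖c‖ ≤ η := by
      rw [le_div_iff₀ hQ0] at h1
      linarith
    have h3 : |ρL c| ≤ ‖ρL‖ * ‖c‖ := by
      have := ρL.le_opNorm c
      rwa [Real.norm_eq_abs] at this
    have h4 : |θL c| ≤ ‖θL‖ * ‖c‖ := by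
      have := θL.le_opNorm c
      rwa [Real.norm_eq_abs] at this
    have hc0 := norm_nonneg c
    constructor
    · refine h3.trans (le_trans ?_ h2)
      refine mul_le_mul_of_nonneg_right ?_ hc0
      rw [hQ]
      have : 0 ≤ μ * ‖θL‖ * ‖a‖ := by positivity
      linarith
    · calc μ * |θL c| * ‖a‖ ≤ μ * (‖θL‖ * ‖c‖) * ‖a‖ := by gcongr
        _ = (μ * ‖θL‖ * ‖a‖) * ‖c‖ := by ring
        _ ≤ Q * ‖c‖ := by
            refine mul_le_mul_of_nonneg_right ?_ hc0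
            rw [hQ]
            have := norm_nonneg ρL
            linarith
        _ ≤ η := h2
  refine RegAt.of_monotone_small (κ := min (1 / 2) (κ * μ / (4 * n ^ 2)))
    (Λ := L' * ‖A‖) (δ := d) (lt_min (by norm_num) (by positivity)) hd0 A
    ⟨Metric.ball x₀ η, Metric.ball_mem_nhds _ hη0, ?_⟩
  filter_upwards [hev₁, hev₂, eventually_mem_nhdsWithin] with t ht₁ ht₂ hts x hx c hc
  rw [Metric.mem_ball, dist_eq_norm] at hx
  obtain ⟨hc1, hc2⟩ := hdη c hc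
  set ρ := ρL c with hρc
  set θ := θL c with hθc
  -- the points
  have hin : ∀ y, ‖y - x₀‖ < δ → y ∈ U₁ ∩ U₂ := fun y hy => hball (by
    rwa [Metric.mem_ball, dist_eq_norm])
  have hxU : x ∈ U₁ ∩ U₂ := hin x (by linarith)
  set y : E := x + ρ • x₀ with hy
  have hρx : ‖ρ • x₀‖ ≤ δ / 4 := by
    rw [norm_smul, Real.norm_eq_abs]
    calc |ρ| * ‖x₀‖ ≤ η * (‖x₀‖ + 1) :=
          mul_le_mul hc1 (by linarith) (norm_nonneg _) hη0.le
      _ ≤ δ / 4 := hη1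
  have hyx : ‖y - x₀‖ ≤ δ / 2 := by
    have e1 : y - x₀ = (x - x₀) + ρ • x₀ := by rw [hy]; abel
    rw [e1]
    refine (norm_add_le _ _).trans ?_
    linarith
  have hyU : y ∈ U₁ ∩ U₂ := hin y (by linarith)
  have hz : x + A c = y + (μ * θ) • a := by rw [hAc, hy]; abel
  have hθa : ‖(μ * θ) • a‖ ≤ δ / 4 := by
    rw [norm_smul, Real.norm_eq_abs, abs_mul, abs_of_pos hμ0]
    linarith
  have hzU : y + (μ * θ) • a ∈ U₁ ∩ U₂ := by
    refine hin _ ?_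
    have e1 : y + (μ * θ) • a - x₀ = (y - x₀) + (μ * θ) • a := by abel
    rw [e1]
    refine lt_of_le_of_lt (norm_add_le _ _) ?_
    linarith
  have hxn : ‖x‖ ≤ ‖x₀‖ + 1 := by
    have e1 : x = (x - x₀) + x₀ := by abel
    rw [e1]
    refine (norm_add_le _ _).trans ?_
    linarith
  have hρ1 : ‖(1 + ρ) • x - x₀‖ < δ := by
    have e1 : (1 + ρ) • x - x₀ = (x - x₀) + ρ • x := by
      rw [add_smul, one_smul]; abel
    have h1 : ‖ρ • x‖ ≤ δ / 4 := by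
      rw [norm_smul, Real.norm_eq_abs]
      exact (mul_le_mul hc1 hxn (norm_nonneg _) hη0.le).trans hη1
    rw [e1]
    refine lt_of_le_of_lt (norm_add_le _ _) ?_
    linarith
  have hwU : (1 + ρ) • x ∈ U₁ ∩ U₂ := hin _ hρ1
  -- Lipschitz with `L'`
  have hLip : ∀ p ∈ U₁ ∩ U₂, ∀ q ∈ U₁ ∩ U₂, ‖F t q - F t p‖ ≤ L' * ‖q - p‖ := fun p hp q hq =>
    ((ht₁ p hp.1).1 q hq.1).trans (mul_le_mul_of_nonneg_right (le_max_left _ _) (norm_nonneg _))
  -- the radial part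
  have hrad : ‖F t y - F t x - ρ • v₀‖ ≤ ε * |ρ| := by
    have e1 : F t ((1 + ρ) • x) = (1 + ρ) • F t x :=
      hom t hts _ (by have := (abs_le.mp (hc1.trans hη4)).1; linarith) x
    have e2 : F t y - F t x - ρ • v₀ =
        (F t y - F t ((1 + ρ) • x)) + ρ • (F t x - v₀) := by
      rw [e1, add_smul, one_smul, smul_sub]; abel
    have h1 : ‖F t y - F t ((1 + ρ) • x)‖ ≤ ε / 2 * |ρ| := by
      refine (hLip _ hwU _ hyU).trans ?_
      have e3 : y - (1 + ρ) • x = -(ρ • (x - x₀)) := by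
        rw [hy, add_smul, one_smul, smul_sub]; abel
      rw [e3, norm_neg, norm_smul, Real.norm_eq_abs]
      calc L' * (|ρ| * ‖x - x₀‖) ≤ L' * (|ρ| * η) := by gcongr
        _ = (L' * η) * |ρ| := by ring
        _ ≤ ε / 2 * |ρ| := mul_le_mul_of_nonneg_right hη2 (abs_nonneg _)
    have h2 : ‖ρ • (F t x - v₀)‖ ≤ ε / 2 * |ρ| := by
      rw [norm_smul, Real.norm_eq_abs, mul_comm]
      exact mul_le_mul_of_nonneg_right (ht₂ x hxU.2) (abs_nonneg _)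
    rw [e2]
    refine (norm_add_le _ _).trans ?_
    linarith
  -- the angular part
  have hang := (ht₁ y hyU.1).2 (μ * θ) hzU.1
  have hz1 : ‖F t (y + (μ * θ) • a) - F t y‖ ≤ M * μ * |θ| := by
    refine (hLip _ hyU _ hzU).trans ?_
    rw [add_sub_cancel_left, norm_smul, Real.norm_eq_abs, abs_mul, abs_of_pos hμ0, hM]
    apply le_of_eq
    ring
  rw [hz]
  constructor
  · have e8 : F t (y + (μ * θ) • a) - F t x = (F t (y + (μ * θ) • a) - F t y) +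
        (F t y - F t x) := by abel
    rw [e8]
    exact angular_incr hv₀ hμ0 hMμ hε1 hε2 (hρ c) (hθ c) hrad hz1 hang
  · refine (hLip _ hxU _ hzU).trans ?_
    rw [← hz, add_sub_cancel_left, mul_assoc]
    exact mul_le_mul_of_nonneg_left (A.le_opNorm c) hL'0

/-- The radial direction is free: version for continuous families. -/
theorem RegAt.of_angular' {s : Set T} {F : T → E → ℂ}
    (cont : ContinuousOn (fun p : T × E => F p.1 p.2) (s ×ˢ univ))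
    (hom : ∀ t ∈ s, Hom1 (F t)) {t₀ : T} (ht₀ : t₀ ∈ s)
    {x₀ : E} (hv₀ : F t₀ x₀ ≠ 0)
    {L κ : ℝ} (hκ : 0 < κ) (a : E)
    (h : ∃ U ∈ 𝓝 x₀, ∀ᶠ t in 𝓝[s] t₀, ∀ x ∈ U, (∀ y ∈ U, ‖F t y - F t x‖ ≤ L * ‖y - x‖) ∧
      ∀ τ : ℝ, x + τ • a ∈ U →
        κ * τ ^ 2 ≤ τ * inner ℝ (F t (x + τ • a) - F t x) (Complex.I * F t₀ x₀)) :
    RegAt s F t₀ x₀ := by
  refine RegAt.of_angular hom hv₀ (fun ε hε => ?_) hκ a h
  have h1 := cont (t₀, x₀) ⟨ht₀, mem_univ _⟩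
  rw [ContinuousWithinAt, nhdsWithin_prod_eq, nhdsWithin_univ] at h1
  have h2 := h1.eventually (Metric.closedBall_mem_nhds (F t₀ x₀) hε)
  obtain ⟨pa, ha, pb, hb, hab⟩ := eventually_prod_iff.mp h2
  refine ⟨{x | pb x}, hb, ?_⟩
  filter_upwards [ha] with t ht x hx
  have h3 : dist (F t x) (F t₀ x₀) ≤ ε := hab ht hx
  rwa [dist_eq_norm] at h3

end Vale.Agent.P268.T
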